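import Vale.Agent.P287D.F1.St
import Vale.Agent.P287D.Va.Dsc
import Vale.Agent.P287D.Pb.Abh
import Vale.Agent.P287D.On.Cur

/-!
# P287D, block F1: the hyperplane class, forms, prime divisors
-/

set_option linter.unusedSectionVars false

noncomputable section

namespace Vale.Agent.P287D.F1

open Set MvPolynomial P287Q Nc P297Z.Pl

variable {J K K' : Type} [Fintype J] [Field K] [Algebra ℂ K] [Field K'] [Algebra ℂ K']
  {ξ : J → K} {P : Pl K} {d n : ℕ} {g : MvPolynomial J ℂ}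

open Classical in
/-- the set of the coordinates -/
def sy (ξ : J → K) : Finset K := Finset.univ.image ξ

theorem lam_eq (ξ : J → K) : lam ξ = mx (sy ξ) := rfl

theorem mem_sy {f : K} : f ∈ sy ξ ↔ ∃ j, ξ j = f := by simp [sy]

theorem sy_nz (h : ∃ j, ξ j ≠ 0) : P287D.Nz (sy ξ) :=
  let ⟨j, a⟩ := h; ⟨_, mem_sy.2 ⟨j, rfl⟩, a⟩

theorem nz_iff : Nc.Nz (u1 J) ξ ↔ ∃ j, ξ j ≠ 0 :=
  ⟨fun h => let ⟨j, _, a⟩ := h (); ⟨j, a⟩, fun ⟨j, a⟩ _ => ⟨j, rfl, a⟩⟩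

theorem smp_lam (ξ : J → K) : Smp (lam ξ) := smp_mx _

theorem lam_car (ξ : J → K) : lam ξ ∈ Car K := mx_mem_Car _

theorem lam_mul (h : ∃ j, ξ j ≠ 0) {c : K} (hc : c ≠ 0) :
    lam (fun j => ξ j * c) = lam ξ - dv c := by
  classical
  rw [lam_eq, lam_eq, ← mx_image_mul (sy_nz h) hc]
  congr 1
  ext f
  simp [mem_sy]

theorem pb_lam {φ : K →+* K'} (h : Ok φ) (ξ : J → K) : pb φ (lam ξ) = lam fun j => φ (ξ j) := by
  rw [lam_eq, lam_eq, h.pb_mx]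
  congr 1
  ext f
  simp [mem_sy, Pb.mem_im]

theorem aeval_mul (hg : g.IsHomogeneous d) (ξ : J → K) (c : K) :
    aeval (fun j => ξ j * c) g = aeval ξ g * c ^ d := by
  rw [aeval_def, aeval_def, eval₂_eq', eval₂_eq', Finset.sum_mul]
  refine Finset.sum_congr rfl fun α hα => ?_
  simp only [mul_pow, Finset.prod_mul_distrib, Finset.prod_pow_eq_pow_sum, mul_assoc]
  congr 3
  rw [← hg (mem_support_iff.1 hα), Finsupp.weight_apply, Finsupp.sum_fintype _ _ (by simp)]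
  simp

/-- the representative which is primitive at `P` -/
def nr (ξ : J → K) (P : Pl K) : J → K := fun j => ξ j * P.t ^ P.mz (sy ξ)

/-- the reduction at `P` -/
def zt (ξ : J → K) (P : Pl K) : J → P.κ := fun j => P.rd (nr ξ P j)

theorem nr_mem (ξ : J → K) (P : Pl K) (j : J) : nr ξ P j ∈ P.ring :=
  P.mem_ring_mz (Submodule.subset_span (mem_sy.2 ⟨j, rfl⟩))

theorem zt_nz (h : ∃ j, ξ j ≠ 0) (P : Pl K) : ∃ j, zt ξ P j ≠ 0 := by
  obtain ⟨f, hf, h0, e⟩ := P.exists_mz (sy_nz h)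
  obtain ⟨j, rfl⟩ := mem_sy.1 hf
  refine ⟨j, (rd_ne_iff (nr_mem ξ P j)).2 ⟨mul_ne_zero h0 (zpow_ne_zero _ P.t_ne), ?_⟩⟩
  rw [nr, P.ord_mul_t h0, e, add_neg_cancel]

theorem rd_zt (h : ∃ j, ξ j ≠ 0) (P : Pl K) : Rd (u1 J) P ξ (zt ξ P) :=
  ⟨nz_iff.2 (zt_nz h P), nr ξ P, ⟨fun _ => P.t ^ P.mz (sy ξ), fun _ => zpow_ne_zero _ P.t_ne,
    fun _ => mul_comm _ _⟩, fun j => ⟨nr_mem ξ P j, rfl⟩⟩

theorem rs_sy (ξ : J → K) (P : Pl K) : P.rs (sy ξ) = sy (zt ξ P) := by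
  ext u
  simp [Pl.rs, mem_sy, zt, nr]

theorem pr_iff (h : ∃ j, ξ j ≠ 0) :
    Pr (u1 J) ξ P ↔ Algebra.IsAlgebraic (fl (u1 J) (zt ξ P)) P.κ := (rd_zt h P).pr

theorem nr_aeval (hg : g.IsHomogeneous d) (ξ : J → K) (P : Pl K) :
    aeval (nr ξ P) g = aeval ξ g * P.t ^ (d * P.mz (sy ξ)) := by
  rw [mul_comm (d : ℤ), zpow_mul, zpow_natCast]
  exact aeval_mul hg ξ _

theorem nr_ord (hg : g.IsHomogeneous d) (h0 : aeval ξ g ≠ 0) (P : Pl K) :
    (P.ord (aeval (nr ξ P) g) : ℝ) = P.ord (aeval ξ g) + d * lam ξ P := by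
  rw [nr_aeval hg, P.ord_mul_t h0, lam_eq, mx_apply]
  push_cast
  rfl

theorem nr_ne (hg : g.IsHomogeneous d) : aeval (nr ξ P) g ≠ 0 ↔ aeval ξ g ≠ 0 := by
  rw [nr_aeval hg, mul_ne_zero_iff, and_iff_left (zpow_ne_zero _ P.t_ne)]

theorem nr_aeval_mem (ξ : J → K) (P : Pl K) (g : MvPolynomial J ℂ) : aeval (nr ξ P) g ∈ P.ring :=
  (rd_aeval (nr_mem ξ P) g).1

theorem rd_nr (ξ : J → K) (P : Pl K) (g : MvPolynomial J ℂ) :
    P.rd (aeval (nr ξ P) g) = aeval (zt ξ P) g := (rd_aeval (nr_mem ξ P) g).2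

theorem form_nonneg (hg : g.IsHomogeneous d) (h0 : aeval ξ g ≠ 0) (P : Pl K) :
    0 ≤ (P.ord (aeval ξ g) : ℝ) + d * lam ξ P := by
  rw [← nr_ord hg h0]
  exact_mod_cast ord_nonneg_of_mem P.toPlace (nr_aeval_mem ξ P g)

theorem zt_ne_iff (hg : g.IsHomogeneous d) : aeval (zt ξ P) g ≠ 0 ↔
    aeval ξ g ≠ 0 ∧ (P.ord (aeval ξ g) : ℝ) + d * lam ξ P = 0 := by
  rw [← rd_nr, rd_ne_iff (nr_aeval_mem ξ P g), nr_ne hg]
  refine and_congr_right fun h => ?_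
  rw [← nr_ord hg h, Int.cast_eq_zero]

theorem zt_van (hg : g.IsHomogeneous d) (h : aeval ξ g = 0) (P : Pl K) : aeval (zt ξ P) g = 0 :=
  by_contra fun k => ((zt_ne_iff hg).1 k).1 h

theorem nr_div {a b : MvPolynomial J ℂ} (ha : a.IsHomogeneous d) (hb : b.IsHomogeneous d)
    (P : Pl K) : aeval ξ a / aeval ξ b = aeval (nr ξ P) a / aeval (nr ξ P) b := by
  rw [nr_aeval ha, nr_aeval hb, mul_div_mul_right _ _ (zpow_ne_zero _ P.t_ne)]

/-- The elements of the field of the ratios are quotients of forms. -/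
theorem qt_of_fl {f : K} (hf : f ∈ fl (u1 J) ξ) : Qt ξ (fun _ _ => True) f := by
  have one : ∀ c : ℂ, Qt ξ (fun _ _ => True) (algebraMap ℂ K c) := fun c =>
    ⟨0, C c, 1, isHomogeneous_C _ _, isHomogeneous_one _ _, trivial, by simp, by simp⟩
  have zero : Qt ξ (fun _ _ => True) 0 := by simpa using one 0
  induction hf using IntermediateField.adjoin_induction with
  | mem x hx =>
    obtain ⟨j, j', -, rfl⟩ := hx
    by_cases h : ξ j' = 0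
    · simpa [h] using zero
    · exact ⟨1, X j, X j', isHomogeneous_X _ _, isHomogeneous_X _ _, trivial, by simpa, by simp⟩
  | algebraMap c => exact one c
  | add x y _ _ hx hy =>
    obtain ⟨d, a, b, h1, h2, -, h3, rfl⟩ := hx
    obtain ⟨d', a', b', k1, k2, -, k3, rfl⟩ := hy
    exact ⟨d + d', a * b' + b * a', b * b', (h1.mul k2).add (h2.mul k1), h2.mul k2, trivial,
      by simp [h3, k3], by simp [div_add_div _ _ h3 k3]⟩
  | inv x _ hx =>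
    obtain ⟨d, a, b, h1, h2, -, h3, rfl⟩ := hx
    by_cases h : aeval ξ a = 0
    · simpa [h] using zero
    · exact ⟨d, b, a, h2, h1, trivial, h, by simp⟩
  | mul x y _ _ hx hy =>
    obtain ⟨d, a, b, h1, h2, -, h3, rfl⟩ := hx
    obtain ⟨d', a', b', k1, k2, -, k3, rfl⟩ := hy
    exact ⟨d + d', a * a', b * b', h1.mul k1, h2.mul k2, trivial, by simp [h3, k3],
      by simp [div_mul_div_comm]⟩

theorem div_mem_fld (ξ : J → K) (j j' : J) : ξ j / ξ j' ∈ fld (lam ξ) := by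
  classical
  by_cases h : ξ j' = 0
  · simp [h]
  refine IntermediateField.subset_adjoin _ _ ⟨1, one_pos, ?_⟩
  have e : mx {1, ξ j / ξ j'} ≤ dv (ξ j') + lam ξ := mx_le ⟨1, by simp, one_ne_zero⟩ fun f hf => by
    rw [add_comm, sec_add_dv h]
    refine sec_of_mem (mem_sy.2 ?_)
    rcases Finset.mem_insert.1 hf with rfl | hf
    · exact ⟨j', by simp⟩
    · exact ⟨j, by rw [Finset.mem_singleton.1 hf, div_mul_cancel₀ _ h]⟩
  exact eff_iff.2 ⟨_, dv_mem_Prn (ξ j'), fun P => by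
    have := e P
    simp only [Pi.add_apply, Pi.sub_apply, Pi.zero_apply, one_smul] at this ⊢
    linarith⟩

theorem fl_le_fld (ξ : J → K) : fl (u1 J) ξ ≤ fld (lam ξ) :=
  IntermediateField.adjoin_le_iff.2 fun _ ⟨j, j', _, e⟩ => e ▸ div_mem_fld ξ j j'

theorem big_lam (hF : FLD) (hK : FF K n) (h : Algebra.IsAlgebraic (fl (u1 J) ξ) K) :
    Big (lam ξ) :=
  (hF.top n K hK _ (smp_lam ξ)).2 (eq_top_iff.2 fun f _ => hF.cld n K hK _ (smp_lam ξ) f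
    ((alg_mono (fl_le_fld ξ) h).isAlgebraic f))

theorem alg_of_big (hV : VOL) (hP : PB) (hK : FF K n) (h0 : ∃ j, ξ j ≠ 0) (h : Big (lam ξ)) :
    Algebra.IsAlgebraic (fl (u1 J) ξ) K := by
  obtain ⟨m, hm, hL⟩ := Gm.ff_sub hK (fl (u1 J) ξ)
  rcases hm.eq_or_lt with rfl | hm
  · exact On.alg_of_trdeg (Pb.ff_fin hK) (by rw [Pb.ff_trdeg hK, Pb.ff_trdeg hL])
  exfalso
  obtain ⟨j, hj⟩ := h0
  let η : J → fl (u1 J) ξ := fun i => ⟨ξ i / ξ j, div_mem_fl ξ rfl⟩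
  have e : pb (inc _) (lam η) = lam ξ + dv (ξ j) := by
    rw [pb_lam (hK.ok_sub _), ← sub_neg_eq_add, ← dv_inv, ← lam_mul ⟨j, hj⟩ (inv_ne_zero hj)]
    simp only [← div_eq_mul_inv]
    rfl
  have b : Big (pb (inc _) (lam η)) := e ▸ h.add_prn (dv_mem_Prn _)
  have s : Smp (pb (inc _) (lam η)) := (hK.ok_sub _).smp (smp_lam η)
  exact ((hV.big n K hK _ s.nef).1 b).ne' (hP.low m n _ K (inc _) hL hK (fun _ => rfl) _
    Finset.univ (by simpa using hm) (fun _ _ => s.car) fun _ _ => ⟨_, lam_car η, rfl⟩)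

theorem on_iff (hR : RES) (hF : FLD) (hV : VOL) (hP : PB) (hK : FF K (n + 1))
    (h0 : ∃ j, ξ j ≠ 0) : On n (lam ξ) P ↔ Pr (u1 J) ξ P := by
  have k := Gm.ff_κ P hK
  rw [hR.on n K hK _ P (smp_lam ξ), lam_eq, hR.sys n K hK, rs_sy, pr_iff h0]
  exact ⟨alg_of_big hV hP k (zt_nz h0 P), big_lam hF k⟩

/-- **ONB** -/
theorem onb (hR : RES) (hF : FLD) (hV : VOL) (hP : PB) : ONB :=
  fun _ _ _ _ _ _ _ _ hK h0 => on_iff hR hF hV hP hK h0

end Vale.Agent.P287D.F1
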