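import Vale.Agent.P287D.F1.St
import Vale.Agent.P287D.Nc.Pa0
import Vale.Agent.P287D.Cb.Kap

/-!
# P287D, block F1: the canonical divisor of a smooth hypersurface
-/

noncomputable section

namespace Vale.Agent.P287D.F1

open Set MvPolynomial P287Q Nc P297Z.Pl
open Vale.Agent.P285N.Brep (jac Fr)

namespace Cn

variable {K : Type} [Field K] [Algebra ℂ K] {m : ℕ}

theorem der_aeval {J : Type} [Fintype J] (d : Derivation ℂ K K) (x : J → K)
    (g : MvPolynomial J ℂ) : d (aeval x g) = ∑ j, aeval x (pderiv j g) * d (x j) := by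
  classical
  induction g using MvPolynomial.induction_on with
  | C a => simp
  | add p q hp hq => simp [hp, hq, add_mul, Finset.sum_add_distrib]
  | mul_X p i hp =>
    simp [hp, pderiv_X, Pi.single_apply, apply_ite (aeval x), add_mul, Finset.sum_add_distrib,
      Finset.mul_sum, mul_assoc]

theorem aeval_mul {J : Type} {d : ℕ} {g : MvPolynomial J ℂ} (h : g.IsHomogeneous d) (c : K)
    (x : J → K) : aeval (fun j => c * x j) g = c ^ d * aeval x g := by
  rw [aeval_def, aeval_def, eval₂_eq, eval₂_eq, Finset.mul_sum]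
  refine Finset.sum_congr rfl fun s hs => ?_
  rw [← h (mem_support_iff.1 hs), Finsupp.weight_apply, Finsupp.sum]
  simp [mul_pow, Finset.prod_mul_distrib, Finset.prod_pow_eq_pow_sum, mul_left_comm]

omit [Algebra ℂ K] in
theorem det2 (A : Matrix (Fin (m + 2)) (Fin (m + 2)) K) (h0 : ∀ j : Fin (m + 1), A 0 j.succ = 0)
    (h1 : ∀ j : Fin m, A 1 j.succ.succ = 0) :
    A.det = A 0 0 * A 1 1 * (Matrix.of fun i j : Fin m => A i.succ.succ j.succ.succ).det := by
  rw [Matrix.det_succ_row_zero, Fin.sum_univ_succ, Finset.sum_eq_zero fun j _ => by simp [h0],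
    Matrix.det_succ_row_zero, Fin.sum_univ_succ, Finset.sum_eq_zero fun j _ => by simp [h1]]
  simp only [Fin.val_zero, pow_zero, one_mul, add_zero, mul_assoc]
  rfl

/-- the rows `v, x, D x` -/
def mt (v x : Fin (m + 2) → K) (D : Fin m → Derivation ℂ K K) :
    Matrix (Fin (m + 2)) (Fin (m + 2)) K :=
  Matrix.of (Fin.cons v (Fin.cons x fun i j => D i (x j)))

theorem det_chg {y : Fin m → K} {E : Fin m → Derivation ℂ K K} (h : Fr y E)
    (D : Fin m → Derivation ℂ K K) (v x : Fin (m + 2) → K) (c : K) :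
    (mt v (fun j => c * x j) D).det = c ^ (m + 1) * jac D y * (mt v x E).det := by
  let T : Matrix (Fin (m + 2)) (Fin (m + 2)) K := Matrix.of (Fin.cons (Fin.cons 1 0)
    (Fin.cons (Fin.cons 0 (Fin.cons c 0)) fun i => Fin.cons 0 (Fin.cons (D i c) fun l => c * D i (y l))))
  have e : mt v (fun j => c * x j) D = T * mt v x E := by
    ext i j
    refine Fin.cases ?_ (Fin.cases ?_ fun i => ?_) i
    · simp [mt, T, Matrix.mul_apply, Fin.sum_univ_succ]
    · simp [mt, T, Matrix.mul_apply, Fin.sum_univ_succ]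
    · simp [mt, T, Matrix.mul_apply, Fin.sum_univ_succ, Cb.expand (Cb.dr_of (D i))
        (D i).map_algebraMap h (x j), Finset.mul_sum, mul_assoc, add_comm, mul_comm (x j)]
  rw [e, Matrix.det_mul, det2 T (fun _ => rfl) fun _ => rfl]
  change 1 * c * (c • Matrix.of fun i l => D i (y l)).det * _ = _
  rw [Matrix.det_smul, Fintype.card_fin, jac]
  ring

theorem det_inv {g x : Fin (m + 2) → K} {D : Fin m → Derivation ℂ K K} {k : Fin (m + 2)}
    {w : Fin m → Fin (m + 2) → K} (hk : x k = 1) (h1 : ∑ j, g j * x j = 0)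
    (h2 : ∀ i, ∑ j, g j * D i (x j) = 0)
    (h3 : ∀ i l, ∑ j, w l j * D i (x j) = if i = l then 1 else 0) (v : Fin (m + 2) → K) :
    (Matrix.of (Fin.cons g (Fin.cons (Pi.single k 1) w))).det * (mt v x D).det =
      ∑ j, g j * v j := by
  rw [← Matrix.det_transpose (mt v x D), ← Matrix.det_mul, det2]
  · rw [show (Matrix.of fun i j : Fin m => (Matrix.of (Fin.cons g (Fin.cons (Pi.single k 1) w)) *
      (mt v x D).transpose) i.succ.succ j.succ.succ) = 1 from
        Matrix.ext fun l i => (h3 i l).trans (by simp [Matrix.one_apply, eq_comm])]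
    simp [Matrix.mul_apply, mt, Pi.single_apply, hk]
  · exact Fin.cases h1 h2
  · intro j
    change ∑ l, (Pi.single k 1 : Fin (m + 2) → K) l * D j (x l) = 0
    simp [Pi.single_apply, hk]

/-- the differential of `y` is an integral combination of the differentials of the `x j` -/
def Cb (P : Pl K) {J : Type} [Fintype J] (x : J → K) (y : K) : Prop :=
  ∃ w : J → K, (∀ j, w j ∈ P.ring) ∧ ∀ d : Derivation ℂ K K, ∑ j, w j * d (x j) = d y

theorem cb_div {P : Pl K} {J : Type} [Fintype J] {x : J → K} (hx : ∀ j, x j ∈ P.ring)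
    (a b : MvPolynomial J ℂ) (hb : (aeval x b)⁻¹ ∈ P.ring) : Cb P x (aeval x a / aeval x b) :=
  have k := fun g => (rd_aeval hx g).1
  ⟨fun j => (aeval x b)⁻¹ ^ 2 * (aeval x b * aeval x (pderiv j a) - aeval x a * aeval x (pderiv j b)),
    fun j => mul_mem (pow_mem hb 2) (sub_mem (mul_mem (k _) (k _)) (mul_mem (k _) (k _))),
    fun d => by
      simp [d.leibniz_div, der_aeval d x, Finset.mul_sum, ← Finset.sum_sub_distrib, mul_assoc,
        sub_mul]⟩

theorem smooth {J L : Type} [Finite J] [Field L] [Algebra ℂ L] {F : MvPolynomial J ℂ}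
    (h : ∀ z : J → ℂ, (∀ i, eval z (pderiv i F) = 0) → z = 0) {x : J → L} {j : J}
    (hj : x j ≠ 0) : ∃ i, aeval x (pderiv i F) ≠ 0 := by
  by_contra! k
  have := Pa.nss (x := x) (p := X j) fun y hy => by simp [h y fun i => hy _ (k i)]
  exact hj (by simpa using this.eq_zero)

end Cn

open Cn in
/-- **CAN** -/
theorem can : CAN := by
  intro n e K _ _ ξ F hK hF hs h0 ⟨j, hj⟩
  classical
  obtain ⟨y, E, hy, ec⟩ := Cb.exists_cn hK
  obtain ⟨i₀, hi₀⟩ := smooth hs hj
  obtain rfl | ⟨e, rfl⟩ := e.eq_zero_or_eq_succ_pred.imp_right fun h => (⟨_, h⟩ : ∃ k, e = k + 1)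
  · rw [← totalDegree_zero_iff_isHomogeneous, totalDegree_eq_zero_iff_eq_C] at hF
    exact absurd (by rw [hF, pderiv_C, map_zero]) hi₀
  have key : ∀ P, Pr (u1 _) ξ P → Uni ξ P → (mt (Pi.single i₀ 1) ξ E).det ≠ 0 ∧
      cn K (n + 1) P = P.ord (aeval ξ (pderiv i₀ F) / (mt (Pi.single i₀ 1) ξ E).det) -
        ((n : ℝ) + 3 - (e + 1 : ℕ)) * lam ξ P := by
    rintro P ⟨ζ, hζ, ha⟩ ⟨t, ht, d, a, b, a1, b1, b2, b3, rfl⟩
    obtain ⟨s, hs'⟩ := Pa.sel hζ.1
    obtain ⟨c0, hx⟩ := Pa.rd_nrm hζ s hs'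
    have c1 := inv_ne_zero (c0 ())
    set c := (ξ (s.1 ()))⁻¹ with hc
    have xe : Pa.nrm s ξ = fun j => c * ξ j := rfl
    have xk : Pa.nrm s ξ (s.1 ()) = 1 := Pa.nrm_one s c0 ()
    have hl : lam ξ P = P.ord c := by
      rw [lam, mx_apply, P.mz_eq (Finset.mem_image_of_mem ξ (Finset.mem_univ _)) (c0 ()), hc,
        ord_inv]
      intro g hg g0
      obtain ⟨j, -, rfl⟩ := Finset.mem_image.1 hg
      have := ord_nonneg_of_mem _ (hx j).1
      rw [xe, ord_mul _ c1 g0, hc, ord_inv] at this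
      omega
    generalize Pa.nrm s ξ = x at hx xe xk
    have xm := fun j => (hx j).1
    have al : Algebra.IsAlgebraic (Algebra.adjoin ℂ (range (Pa.nrm s ζ))) P.κ :=
      IntermediateField.isAlgebraic_adjoin_iff_top.1 (alg_mono ((Pa.sim_nrm s hs').fl.le.trans
        (IntermediateField.adjoin_le_iff.2 (by
          rintro _ ⟨j, j', -, rfl⟩
          exact div_mem (IntermediateField.subset_adjoin _ _ ⟨j, rfl⟩)
            (IntermediateField.subset_adjoin _ _ ⟨j', rfl⟩)))) ha)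
    obtain ⟨T, T1, T2⟩ := exists_isTranscendenceBasis_subset (R := ℂ) (range (Pa.nrm s ζ))
    obtain ⟨q⟩ := Cardinal.eq.1
      ((Cardinal.mk_fin n).trans (T2.cardinalMk_eq_trdeg.trans (Cb.trdeg_κ hK P)).symm)
    choose ι hι using fun i => T1 (q i).2
    have b4 : aeval x b ≠ 0 ∧ P.ord (aeval x b) = 0 := by
      rw [xe, aeval_mul b1, ord_mul _ (pow_ne_zero _ c1) b3, ord_pow]
      exact ⟨mul_ne_zero (pow_ne_zero _ c1) b3, by rw [hl, add_comm] at b2; exact_mod_cast b2⟩
    have te : aeval ξ a / aeval ξ b = aeval x a / aeval x b := by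
      rw [xe, aeval_mul a1, aeval_mul b1, mul_div_mul_left _ _ (pow_ne_zero _ c1)]
    rw [te] at ht
    obtain ⟨D, hD⟩ := Cb.Ada.ad (u := fun i => x (ι i)) ⟨ht, fun i => xm _, by
      simpa only [← (hx _).2, hι, Function.comp_def] using (T2.comp_equiv q).1⟩ hK
    have cb : ∀ l, Cb P x ((Fin.cons (aeval x a / aeval x b) fun i => x (ι i) : Fin (n + 1) → K) l) :=
      Fin.cases (cb_div xm a b ((ord_eq_zero_iff _ b4.1).1 b4.2).2) fun i => by
        simpa using cb_div xm (X (ι i)) 1 (by simp)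
    choose w w1 w2 using cb
    have F0 : aeval x F = 0 := by rw [xe, aeval_mul hF, h0, mul_zero]
    have inv := det_inv (g := fun j => aeval x (pderiv j F)) (D := D) (w := w) xk
      (by simpa [F0, mul_comm] using congrArg (aeval x) hF.sum_X_mul_pderiv)
      (fun i => by rw [← der_aeval, F0, map_zero]) fun i l => (w2 l _).trans (hD.fr.dual i l)
    obtain ⟨i, hi⟩ := smooth (x := fun j => P.rd (x j)) (j := s.1 ()) hs
      (by rw [← (hx _).2, Pa.nrm_one s hs']; exact one_ne_zero)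
    obtain ⟨u1, u2⟩ := (rd_ne_iff (rd_aeval xm _).1).1 ((rd_aeval xm _).2 ▸ hi)
    have sg : ∀ k j : Fin (n + 3), (Pi.single k 1 : Fin (n + 3) → K) j ∈ P.ring := fun k j => by
      rw [Pi.single_apply]
      split_ifs
      exacts [one_mem _, zero_mem _]
    have e1 := inv (Pi.single i 1)
    have e2 := inv (Pi.single i₀ 1)
    simp only [Pi.single_apply, mul_ite, mul_one, mul_zero, Finset.sum_ite_eq', Finset.mem_univ,
      if_true] at e1 e2
    set W := (Matrix.of (Fin.cons (fun j => aeval x (pderiv j F))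
      (Fin.cons (Pi.single (s.1 ()) 1) w) : Fin (n + 3) → Fin (n + 3) → K)).det
    have W0 : P.ord W = 0 := by
      have p1 : 0 ≤ P.ord W := ord_nonneg_of_mem _ (Cb.det_mem _
        (Fin.cases (fun j => (rd_aeval xm _).1) (Fin.cases (sg _) w1)))
      have p2 : 0 ≤ P.ord (mt (Pi.single i 1) x D).det := ord_nonneg_of_mem _ (Cb.det_mem _
        (Fin.cases (sg _) (Fin.cases xm fun l j => hD.pre l _ (xm j))))
      rw [← e1] at u1 u2
      rw [ord_mul _ (left_ne_zero_of_mul u1) (right_ne_zero_of_mul u1)] at u2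
      omega
    rw [xe, det_chg hy, aeval_mul hF.pderiv] at e2
    have n0 := e2 ▸ mul_ne_zero (pow_ne_zero (e + 1 - 1) c1) hi₀
    have n1 := right_ne_zero_of_mul n0
    have n2 := left_ne_zero_of_mul n1
    have o := congrArg P.ord e2
    rw [ord_mul _ (left_ne_zero_of_mul n0) n1, W0, ord_mul _ n2 (right_ne_zero_of_mul n1),
      ord_mul _ (left_ne_zero_of_mul n2) (right_ne_zero_of_mul n2), ord_mul _ (pow_ne_zero _ c1) hi₀,
      ord_pow, ord_pow, Nat.add_sub_cancel] at o
    refine ⟨right_ne_zero_of_mul n1, ?_⟩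
    rw [ec, Cb.kap_eq hD, hl, ord_div _ hi₀ (right_ne_zero_of_mul n1)]
    have o' := congrArg (Int.cast : ℤ → ℝ) o
    push_cast at o' ⊢
    linarith
  by_cases z : (mt (Pi.single i₀ 1) ξ E).det = 0
  · exact ⟨1, one_ne_zero, fun P a b => ((key P a b).1 z).elim⟩
  · exact ⟨_, div_ne_zero hi₀ z, fun P a b => (key P a b).2⟩

end Vale.Agent.P287D.F1
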