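import Vale.Agent.P287D.F1.Fd
import Vale.Agent.P287D.F1.Can
import Vale.Agent.P287D.F1.Bas
import Vale.Agent.P287D.Br.Loc
import Vale.Agent.P287D.Tw.Mapp
import Vale.Agent.P287Q.Cub.N0

/-!
# P287D, block F1: projective space and the smooth cubic are Fano of rank one
-/

set_option linter.all false

noncomputable section

namespace Vale.Agent.P287D.F1

open Set MvPolynomial P287Q Nc Br P269.Hdg

variable {N n : ℕ} {K : Type} [Field K] [Algebra ℂ K] {ι : Type} [Fintype ι] [DecidableEq ι]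
  {F : ι → MP N} {d : ι → ℕ} {A : Set (Fin (N + 1) → ℂ)}

theorem lef {h : PV (Cub.π₀ (Fin (N + 1))) A n} {c : IsConnected A} (hF : IsCI F d)
    (hn : n + Fintype.card ι = N) (h2 : n ≠ 2) (e : A = cone F) (a : Vm (Top.one h c) K) :
    Lef a.M.F := by
  subst e
  have := Cub.N0_isAct (Cub.π₀ (Fin (N + 1)))
  have p := (Cub.sc_scl (Cub.π₀ (Fin (N + 1)))).isProj (F := F)
  obtain ⟨e, -⟩ := a.qm.exists_homeo
  let e' := e.trans ((Homeomorph.setCongr a.all).trans (Homeomorph.Set.univ _)).symm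
  exact fun x y hx h0 hy => deg_smul hF (π := e' ∘ P269.Quo.mk _) ⟨e'.isQuotientMap.comp p.quot,
    fun x y => e'.injective.eq_iff.trans (p.fib x y)⟩ hn (by exact_mod_cast h2.symm) hx h0 hy

theorem uni {h : PV (Cub.π₀ (Fin (N + 1))) A n} {c : IsConnected A} {a : Vm (Top.one h c) K}
    {ξ : Fin (N + 1) → K} (k : a.At ξ) (h0 : ∃ j, ξ j ≠ 0) {P : Pl K} (hP : a.M.Pr P.toPlace) :
    Uni ξ P := by
  obtain ⟨x, t, g⟩ := hP
  obtain ⟨y, hy, rfl⟩ := a.exists_pt x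
  obtain ⟨δ, p, q, hp, hq, q0, e⟩ := k.loc hy g.mem
  have := (zt_ne_iff (Tw.hom_of_wh hq)).1 fun z => q0 ((k.ct_iff hy (rd_zt h0 P)).1 g.le δ q hq z)
  exact ⟨t, g.ord, _, p, q, Tw.hom_of_wh hp, Tw.hom_of_wh hq, this.2, this.1, e⟩

theorem fano_ci {h : PV (Cub.π₀ (Fin (N + 1))) A (n + 1)} {c : IsConnected A} (hF : IsCI F d)
    (hn : n + 1 + Fintype.card ι = N) (h2 : n + 1 ≠ 2) (e : A = cone F) {ξ : Fin (N + 1) → K}
    (g : Gp (Top.one h c) ξ) {r : ℝ} (hr : 0 < r) {f : K}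
    (k : ∀ P, Pr (u1 _) ξ P → Uni ξ P → cn K (n + 1) P = P.ord f - r * lam ξ P) :
    Fano1 n (lam ξ) := by
  obtain ⟨a, b⟩ := vm g
  have h0 := nz_iff.1 g.nz
  obtain ⟨D, -, -, hD, -, q, -⟩ := b.lam (fun _ _ => rfl) h0
  rw [show lam ξ = _ from q] at k ⊢
  exact (lef hF hn h2 e a).fano a.proj hD hr fun P hP => k P (b.pr_iff.2 hP) (uni b h0 hP)

variable {y : Fin N → K} {P : Pl K}

theorem lam_snoc (h0 : ∃ j, y j ≠ 0) : lam (Fin.snoc y 0 : Fin (N + 1) → K) = lam y := by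
  obtain ⟨j, hj⟩ := id h0
  refine le_antisymm (mx_le_of_span (s := sy _) (sy_nz ⟨j.castSucc, by simpa⟩) fun f hf => ?_)
    (mx_mono (s := sy _) (sy_nz h0) fun f hf =>
      let ⟨i, e⟩ := mem_sy.1 hf
      mem_sy.2 ⟨i.castSucc, by simpa⟩)
  obtain ⟨i, rfl⟩ := mem_sy.1 hf
  refine Fin.lastCases (by simp) (fun i => Submodule.subset_span (mem_sy.2 ⟨i, by simp⟩)) i

theorem pr_snoc (h : Pr (u1 _) y P) : Pr (u1 _) (Fin.snoc y 0 : Fin (N + 1) → K) P := by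
  obtain ⟨ζ, ⟨a, y', ⟨t, ht, e⟩, r⟩, b⟩ := h
  obtain ⟨j, hj⟩ := nz_iff.1 a
  refine ⟨Fin.snoc ζ 0, ⟨nz_iff.2 ⟨j.castSucc, by simpa⟩, Fin.snoc y' 0,
    ⟨t, ht, Fin.lastCases (by simp) fun i => by simpa using e i⟩,
    Fin.lastCases (by
      simp only [Fin.snoc_last]
      exact ⟨zero_mem _, ((Bm.rd_zero_iff P (zero_mem _)).2 (.inl rfl)).symm⟩) fun i => by simpa using r i⟩,
    ⟨fun x => (b.1 x).tower_top_of_subalgebra_le (A := (fl _ ζ).toSubalgebra)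
      (B := (fl (u1 _) _).toSubalgebra) (IntermediateField.adjoin.mono _ _ _ ?_)⟩⟩
  rintro _ ⟨i, i', -, rfl⟩
  exact ⟨i.castSucc, i'.castSucc, rfl, by simp⟩

theorem uni_snoc (h0 : ∃ j, y j ≠ 0) (h : Uni y P) : Uni (Fin.snoc y 0 : Fin (N + 1) → K) P := by
  obtain ⟨t, a, d, p, q, hp, hq, b, c, e⟩ := h
  have k : ∀ g : MvPolynomial (Fin N) ℂ,
      aeval (Fin.snoc y 0 : Fin (N + 1) → K) (rename Fin.castSucc g) = aeval y g := fun g =>
    by rw [aeval_rename, Fin.snoc_comp_castSucc]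
  exact ⟨t, a, d, rename Fin.castSucc p, rename Fin.castSucc q, hp.rename_isHomogeneous,
    hq.rename_isHomogeneous, by beta_reduce; rwa [k, lam_snoc h0], by rwa [k], by rwa [k, k]⟩

theorem wh_of_hom {J : Type} [Fintype J] {e : ℕ} {p : MvPolynomial J ℂ} (h : p.IsHomogeneous e) :
    WHom (bw fun _ => ()) (fun _ => e) p := fun α a _ => by
  rw [← h (mem_support_iff.1 a), Finsupp.weight_apply, Finsupp.sum_fintype _ _ (by simp)]
  simp [bw]

/-- **FAN** -/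
theorem fan : FAN where
  p4 K _ _ y g := by
    have h0 := nz_iff.1 g.nz
    obtain ⟨j, hj⟩ := id h0
    obtain ⟨f, -, k⟩ := can 3 1 K (Fin.snoc y 0) (X (Fin.last 5)) (ff_of_gp g)
      (isHomogeneous_X _ _) (fun z h => absurd (h (Fin.last 5)) (by simp))
      ((aeval_X _ _).trans (Fin.snoc_last _ _)) ⟨j.castSucc, by simpa⟩
    refine fano_ci (h := (Pn 4).pv) (c := (Pn 4).conn) (F := Empty.elim) (d := Empty.elim)
      ⟨fun j => j.elim, fun j => j.elim, fun _ _ => linearIndependent_empty_type⟩ rfl (by simp)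
      (Set.ext fun _ => mem_Ust_unit.trans ⟨fun a => ⟨a, fun j => j.elim⟩, fun a => a.1⟩) g
      (by norm_num) fun P a b => lam_snoc h0 ▸ k P (pr_snoc a) (uni_snoc h0 b)
  cub F hF hs h c K _ _ x g := by
    obtain ⟨f, -, k⟩ := can 3 3 K x F (ff_of_gp g) hF hs
      (g.van _ F (wh_of_hom hF) fun y hy => hy.2) (nz_iff.1 g.nz)
    exact fano_ci (F := fun _ : Unit => F) (d := fun _ => 3)
      ⟨fun _ => hF, fun _ => by simp, fun x hx => linearIndependent_unique_iff.2 fun e =>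
        hx.1 (hs x (congrFun e))⟩ rfl (by simp)
      (Set.ext fun _ => and_congr_right fun _ => ⟨fun h _ => h, fun h => h ()⟩) g (by norm_num) k

end Vale.Agent.P287D.F1
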