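import Vale.Agent.P287D.Cl.Num
import Vale.Agent.P287D.In.All
import Vale.Agent.P287D.Ba.PosOn
import Vale.Agent.P287D.Pc.Num
import Vale.Agent.P287D.Fs.Ftf

/-!
# P287D, block F1: divisors with trivial class are numerically trivial
-/

set_option linter.all false

open Set Filter Topology
open Vale.Agent.P277Z Vale.Agent.P277Z.FI Vale.Agent.P291Z Vale.Agent.P269
open Vale.Agent.P287D.Ba Vale.Agent.P287D.Cl

noncomputable section

namespace Vale.Agent.P287D.F1

attribute [local instance] cptF niceF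

variable {n : ℕ} {K : Type} [Field K] [Algebra ℂ K]

theorem exists_ch {M : Mdl n 0 K} (hM : M.Proj) (x : M.F) : ∃ c : P272.K.Chart n M.W,
    SubH.Cht c ∧ x.1 ∈ c.source ∧ c x = 0 ∧ c.source ⊆ M.F := by
  obtain ⟨t, ht⟩ := (hloc hM).coord x
  obtain ⟨c, c1, c2, c3⟩ := SubH.exists_cht (fun j => (ht.1 j).1) ht.2
  exact ⟨_, c1.restr isOpen_interior, ⟨c2, mem_interior_iff_mem_nhds.2
    ((((Ba.cpt M).and M.fib).filter_mono (nhds_le_nhdsSet x.2)).mono fun _ a => a.2.1 a.1)⟩,
    funext fun j => (c3 _ c2 j).trans (ht.1 j).2, fun _ a => interior_subset a.2⟩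

/-- every projective model has a fundamental class -/
theorem exists_fd {M : Mdl n 0 K} (hM : M.Proj) : ∃ β, Fd M β := by
  classical
  have A : Orb.IsAtlas (X := M.F) fun ψ m => m = 1 ∧ ∃ p, Chs M ψ p := by
    refine ⟨fun x => ?_, fun ψ _ ψ' _ ⟨a, p, b⟩ ⟨a', p', b'⟩ e => ⟨a.trans a'.symm, b.rep b' e⟩⟩
    obtain ⟨c, c1, c2, c0, c4⟩ := exists_ch hM x
    let φ : (Fin n → ℂ) → M.F := fun z => if a : c.symm z ∈ M.F then ⟨_, a⟩ else x
    have k : ∀ z ∈ c.target, (φ z : M.W) = c.symm z := fun z a =>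
      congrArg Subtype.val (dif_pos (c4 (c.map_target a)))
    have ct : ∀ z ∈ c.target, ContinuousAt φ z := fun z a =>
      IsInducing.subtypeVal.continuousAt_iff.2 ((c.continuousAt_symm a).congr
        ((c.open_target.eventually_mem a).mono fun _ b => (k _ b).symm))
    have h0 : (0 : Fin n → ℂ) ∈ c.target := c0 ▸ c.map_source c2
    refine ⟨PUnit, inferInstance, inferInstance, c.target, h0, fun _ u => u, φ,
      Subtype.ext ((k _ h0).trans (c0 ▸ c.left_inv c2)), ⟨c.open_target, ⟨fun _ => rfl,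
        fun _ _ _ => rfl, fun _ => continuous_id, continuous_iff_continuousAt.2 fun u =>
          (ct _ u.2).comp continuousAt_subtype_val, fun S hS => ?_, fun u u' => ⟨fun e =>
          ⟨1, Subtype.ext (c.symm.injOn u.2 u'.2 ((k _ u.2).symm.trans
            ((congrArg Subtype.val e).trans (k _ u'.2))))⟩, fun ⟨_, e⟩ => e ▸ rfl⟩⟩,
      fun _ => ⟨id, Orb.posGerm_id, .of_forall fun _ => rfl⟩⟩, fun u =>
        ⟨fun z => φ (z + u), ⟨Nat.card_eq_one_iff_unique.2 ⟨inferInstance, ⟨⟨1, rfl⟩⟩⟩,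
          fun y => c y - u, ?_⟩, .of_forall fun _ => rfl⟩⟩
    · rw [show (fun u : c.target => φ u) '' S =
          Subtype.val ⁻¹' (c.source ∩ c ⁻¹' (Subtype.val '' S)) from Set.ext fun y =>
        ⟨fun ⟨u, a, b⟩ => by
          rw [← b, mem_preimage, k _ u.2]
          exact ⟨c.map_target u.2, u, a, (c.right_inv u.2).symm⟩,
        fun ⟨a, u, b, e⟩ => ⟨u, b, Subtype.ext ((k _ u.2).trans (by rw [e, c.left_inv a]))⟩⟩]
      exact (c.isOpen_inter_preimage (c.open_target.isOpenMap_subtype_val S hS)).preimage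
        continuous_subtype_val
    · have t0 : Tendsto (fun z => z + u.1) (𝓝 0) (𝓝 u.1) :=
        (continuous_add_const _).tendsto' _ _ (zero_add _)
      have t1 := t0.eventually_mem (c.open_target.mem_nhds u.2)
      have e0 : (φ (0 + u.1) : M.W) = c.symm u := by rw [zero_add, k _ u.2]
      refine ⟨t1.mono fun z b => ContinuousAt.comp (g := φ) (ct _ b)
        (continuous_add_const _).continuousAt, fun a ha => ?_, fun j => ?_, t1.mono fun z b => ?_, ?_⟩
      · rw [e0] at ha
        exact ((c1.inv _ (c.map_target u.2) a ha).comp_of_eq (analyticAt_id.add analyticAt_const)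
          ((zero_add _).trans (c.right_inv u.2).symm)).congr
          (t1.mono fun z b => congrArg a (k _ b).symm)
      · rw [e0]
        exact Lo.hol_sub (c1.hol _ (c.map_target u.2) j) (Lo.hol_const _)
      · rw [k _ b, c.right_inv b, add_sub_cancel_right]
      · filter_upwards [continuousAt_subtype_val.eventually_mem
          (c.open_source.mem_nhds (e0 ▸ c.map_target u.2))] with y a
        rw [sub_add_cancel]
        exact Subtype.ext ((k _ (c.map_source a)).trans (c.left_inv a))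
  obtain ⟨β, h⟩ := A.exists_isFund
  exact ⟨β, h.1, fun Ψ p a => Nat.cast_one (R := ℂ) ▸ h.2 Ψ 1 ⟨rfl, p, a⟩⟩

variable {M : Mdl (n + 1) 0 K} {A D : P277Z.Div K}

/-- a divisor whose class vanishes is numerically trivial -/
theorem num_of_cl (hM : M.Proj) (h : cl M D = 0) : Num (bar M D) := by
  refine (int'.num n K (ff_model hM) _ (bar_car hM D)).2 fun γ hγ => ?_
  obtain ⟨M', m, U, E, hM', -, -, -, -, -, e⟩ := comF hM hγ finite_empty finite_empty
  obtain ⟨β, hβ⟩ := exists_fd hM'
  have := intg_num _ K M' β (Ba.pc hM') hβ (Fin.cons (M.pull M' D) E)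
  rw [List.ofFn_succ, List.prod_cons, Fin.cons_zero,
    cl_pull (hloc hM) (hloc hM') (hbir hM hM' m), h, map_zero, zero_mul, map_zero,
    ← I_bar hM', eq_comm, Complex.ofReal_eq_zero] at this
  rw [← this]
  exact congrArg _ (funext (Fin.cases (bar_pull hM hM' m D).symm fun i => (e i).2.1))

/-- the second Betti number is at most one -/
def Lef (X : Type) [TopologicalSpace X] : Prop :=
  ∀ x y : H X, H.IsDeg 2 x → x ≠ 0 → H.IsDeg 2 y → ∃ t : ℂ, y = t • x

theorem vol_amp (hM : M.Proj) (hA : M.Amp A) : 0 < vol (n + 1) (bar M A) :=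
  (Ba.Vl.volA.big _ K (ff_model hM) _ (smp_amp hM hA).nef).1 (big_amp hM hA)

theorem Lef.num (h : Lef M.F) (hM : M.Proj) (hA : M.Amp A) (D : P277Z.Div K) :
    ∃ t : ℝ, Num (bar M D - t • bar M A) := by
  obtain ⟨β, hβ⟩ := exists_fd hM
  have v := (vol_amp hM hA).ne'
  rw [vol, I_bar hM fun _ => A, ← Complex.ofReal_ne_zero] at v
  have a := intg_num _ K M β (Ba.pc hM) hβ fun _ => A
  have b := intg_num _ K M β (Ba.pc hM) hβ (Fin.cons D fun _ => A)
  rw [List.ofFn_succ, List.prod_cons] at a b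
  obtain ⟨t, e⟩ := h _ _ (cl_deg (hloc hM) A) (fun z => v (by rw [← a, z, zero_mul, map_zero]))
    (cl_deg (hloc hM) D)
  simp only [Fin.cons_zero, Fin.cons_succ] at b
  rw [e, smul_mul_assoc, map_smul, a, smul_eq_mul, ← eq_div_iff v, ← Complex.ofReal_div] at b
  generalize I.num M _ / I.num M _ = r at b
  refine ⟨r, ?_⟩
  rw [← map_smul, ← map_sub]
  refine num_of_cl hM ?_
  rw [map_sub, map_smul, e, b, Complex.coe_smul, sub_self]

/-- smooth Fano varieties with second Betti number one -/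
theorem Lef.fano (h : Lef M.F) (hM : M.Proj) (hA : M.Amp A) {c : ℝ} (hc : 0 < c) {f : K}
    (e : ∀ P : Pl K, M.Pr P.toPlace → cn K (n + 1) P = P.ord f - c * bar M A P) :
    Fano1 n (bar M A) := by
  have hK := ff_model hM
  have s := smp_amp hM hA
  have k : dv f - c • bar M A = bar M (KM M) :=
    ((ds_prn hM (dv_mem_Prn f)).sub hM ((ds_bar hM A).smul hM c)).eq_bar hM
      ⟨KM_dv hM, fun P hP => (e P hP).symm.trans (KM_pr hM hP)⟩
  have a : AmpOn (bar M A) (-bar M (KM M)) := (s.ampOn_smul hc).congr (by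
    rw [← k, neg_sub, sub_sub_cancel_left]; exact neg_mem (dv_mem_Prn f))
  have t := term_amp hM hA
  refine ⟨⟨_, t, a⟩, qf_amp hM hA, ?_⟩
  have q : Pic (bar M A) = Submodule.span ℝ {(Prn K).mkQ (bar M A)} := by
    refine le_antisymm (Submodule.span_le.2 ?_) (Submodule.span_mono (singleton_subset_iff.2
      ⟨_, .refl s, rfl⟩))
    rintro _ ⟨β, d, rfl⟩
    obtain ⟨D, -, rfl⟩ := (dsc_iff hM hA).1 d
    obtain ⟨r, hr⟩ := h.num hM hA D
    refine Submodule.mem_span_singleton.2 ⟨r, ?_⟩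
    rw [← map_smul, eq_comm]
    exact (Submodule.Quotient.eq _).2
      (Pc.num res' hK (Fs.ft_of t a.nef (a.big_iff.1 t.big)) hr)
  rw [rho, q]
  exact finrank_span_singleton fun z => (vol_amp hM hA).ne'
    (int'.prn _ K hK _ 0 (fun _ _ => s.car) ((Submodule.Quotient.mk_eq_zero _).1 z))

end Vale.Agent.P287D.F1
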