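import Vale.Agent.P287D.F1.St
import Vale.Agent.P287D.In.Int

/-!
# P287D, block F1: the row HOD
-/

set_option linter.all false

open Set

noncomputable section

namespace Vale.Agent.P287D.F1

open In

variable {n : ℕ} {K : Type} [Field K] [Algebra ℂ K] {a b x Λ β γ η : BD K} {c : Fin n → BD K}

/-- the quadratic form of `c` -/
def qf (c : Fin n → BD K) (a b : BD K) : ℝ := I (n + 2) K (Fin.cons a (Fin.cons b c))

section

variable (h : Hy) (hK : FF K (n + 2)) (hc : ∀ i, c i ∈ Car K)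
include h hK hc

theorem qf_comm (ha : a ∈ Car K) (hb : b ∈ Car K) : qf c a b = qf c b a := h.swap hK ha hb hc

theorem qf_l (ha : a ∈ Car K) (hb : b ∈ Car K) (hx : x ∈ Car K) (t : ℝ) :
    qf c (a + t • b) x = qf c a x + t * qf c b x := by
  rw [qf, h.cons_add hK (h.isb _ K hK _ ha) (h.isb _ K hK _ ((Car K).smul_mem t hb))
    (cons_mem hx hc), cons_smul]
  rfl

theorem qf_r (ha : a ∈ Car K) (hb : b ∈ Car K) (hx : x ∈ Car K) (t : ℝ) :
    qf c x (a + t • b) = qf c x a + t * qf c x b := by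
  rw [qf_comm h hK hc hx (add_mem ha ((Car K).smul_mem t hb)), qf_l h hK hc ha hb hx,
    qf_comm h hK hc ha hx, qf_comm h hK hc hb hx]

end

theorem qf_lor (h : Hy) (V : VOL) (hK : FF K (n + 2)) (hc : ∀ i, Nef (c i)) (hΛ : Nef Λ)
    (hx : x ∈ Car K) {m : ℝ} (hm : Nef (x + m • Λ)) : qf c Λ Λ * qf c x x ≤ qf c Λ x ^ 2 := by
  have k : qf c Λ Λ * qf c _ _ ≤ qf c Λ _ ^ 2 := V.kt n K hK Λ _ c hΛ hm hc
  have c' := fun i => (hc i).car
  rw [qf_l h hK c' hx hΛ.car hm.car, qf_r h hK c' hx hΛ.car hx, qf_r h hK c' hx hΛ.car hΛ.car,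
    qf_comm h hK c' hx hΛ.car] at k
  nlinarith

theorem nef_dsc (d : Dsc Λ β) (s : ℝ) : ∃ m : ℝ, Nef (s • β + m • Λ) := by
  obtain ⟨ε, e, u, v⟩ := d
  refine ⟨|s| / ε, ?_⟩
  rcases le_total 0 s with k | k
  · convert (u.smul (div_nonneg k e.le)).nef using 1
    rw [abs_of_nonneg k, smul_add, smul_smul, div_mul_cancel₀ _ e.ne', add_comm]
  · convert (v.smul (div_nonneg (neg_nonneg.2 k) e.le)).nef using 1
    rw [abs_of_nonpos k, smul_sub, smul_smul, div_mul_cancel₀ _ e.ne', neg_smul, sub_neg_eq_add,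
      add_comm]

theorem qf_nonpos (h : Hy) (V : VOL) (hK : FF K (n + 2)) (hc : ∀ i, Nef (c i)) (d : Dsc Λ β)
    (e : qf c Λ β = 0) : qf c β β ≤ 0 := by
  have hΛ := (Dsc.smp d).nef
  have c' := fun i => (hc i).car
  obtain ⟨m, hm⟩ := nef_dsc d 1
  have k := qf_lor h V hK hc hΛ (Dsc.car d) (one_smul ℝ β ▸ hm)
  have p : 0 ≤ qf c Λ Λ := (h.row _ K hK).nef _ (cons_mem hΛ (cons_mem hΛ hc))
  rcases p.eq_or_lt with p | p
  · obtain ⟨ε, e0, u, v⟩ := id d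
    have : 0 ≤ qf c _ _ := (h.row _ K hK).nef _ (cons_mem u.nef (cons_mem v.nef hc))
    rw [sub_eq_add_neg, ← neg_smul, qf_l h hK c' hΛ.car (Dsc.car d) (add_mem hΛ.car
      ((Car K).smul_mem _ (Dsc.car d))), qf_r h hK c' hΛ.car (Dsc.car d) hΛ.car,
      qf_r h hK c' hΛ.car (Dsc.car d) (Dsc.car d), qf_comm h hK c' (Dsc.car d) hΛ.car, e, ← p] at this
    by_contra! q
    nlinarith [mul_pos (mul_pos e0 e0) q]
  · rw [e] at k
    by_contra! q
    nlinarith [mul_pos p q]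

theorem perm4 (h : Hy) (hK : FF K 4) (σ : Equiv.Perm (Fin 4)) {v w : Fin 4 → BD K}
    (hv : ∀ i, v i ∈ Car K) (e : ∀ i, w i = v (σ i)) : I 4 K w = I 4 K v :=
  (congrArg _ (funext e)).trans (h.perm 4 K hK v σ hv)

theorem hod_of (h : Hy) (M : MOD) (N : INT) (V : VOL) : HOD := by
  intro K _ _ Λ β hK h1 h2 d e
  have cβ := Dsc.car d
  have cΛ := h1.car
  have v2 : ∀ {p : BD K → Prop} {a b}, p a → p b → ∀ i, p (![a, b] i) := fun u v =>
    cons_mem u (cons_mem v finZeroElim)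
  have s2 : ∀ γ, Nef γ → ∀ R, cf R ![β, β, γ] ≤ 0 := fun γ hγ R => by
    have t : ∀ a b, cf R ![a, b, γ] = qf ![res R γ] (res R a) (res R b) := fun a b =>
      congrArg (I 3 R.κ) (funext fun i => by fin_cases i <;> rfl)
    obtain ⟨Λ', η, a1, a2, a3⟩ := hul_of M 3 K hK R {Λ, β, γ} (toFinite _)
      (by simp [insert_subset_iff, cΛ, cβ, hγ.car])
    rw [t]
    refine qf_nonpos h V (h.rsd 3 K hK R) (cons_mem (h.res_nef hK R hγ) finZeroElim)
      (h.res_dsc hK R d) ?_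
    rw [← t, h.cf_hull hK (b := ![Λ, β, γ]) a1
      (cons_mem (a2 _ (by simp)) (v2 (a2 _ (by simp)) (a2 _ (by simp)))) a3,
      ← e η (Dsc.car a3.1) γ hγ.car]
    exact perm4 h hK (Equiv.swap 0 2 * Equiv.swap 1 2) (cons_mem cΛ (cons_mem cβ (v2 (Dsc.car a3.1) hγ.car)))
      fun i => by fin_cases i <;> rfl
  have s3 : ∀ γ γ', Nef γ → Nef γ' → qf ![γ, γ'] β β = 0 := fun γ γ' u v => by
    refine le_antisymm (qf_nonpos h V hK (v2 u v) d (e _ u.car _ v.car)) ?_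
    obtain ⟨ε, e0, G, g0, g1⟩ := h2.exists_eff u.car
    have c3 : ∀ i, ![β, β, γ'] i ∈ Car K := cons_mem cβ (v2 (p := (· ∈ Car K)) cβ v.car)
    have k := h.cons_congr hK (h.isb 3 K hK _ (sub_mem cΛ ((Car K).smul_mem ε u.car))) g1 c3
    rw [h.cons_sub hK (h.isb 3 K hK _ cΛ) (h.isb 3 K hK _ ((Car K).smul_mem ε u.car)) c3, cons_smul,
      show I (3 + 1) K (Fin.cons Λ ![β, β, γ']) = 0 from e _ cβ _ v.car, I_cons G] at k
    have := finsum_induction (f := fun R => G R * cf R ![β, β, γ']) (· ≤ 0) le_rfl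
      (fun _ _ => add_nonpos) fun R => mul_nonpos_of_nonneg_of_nonpos (g0 R) (s2 γ' v R)
    have w : qf ![γ, γ'] β β = I (3 + 1) K (Fin.cons γ ![β, β, γ']) :=
      perm4 h hK (Equiv.swap 0 2) (cons_mem u.car c3) fun i => by fin_cases i <;> rfl
    rw [w]
    exact nonneg_of_mul_nonneg_right (by linarith [k.symm.le.trans this]) e0
  refine (N.num 3 K hK β cβ).2 fun γ hγ => (h.tail_ml hK (h.isb 3 K hK _ cβ)).zero_of_span
    (S := {A | Nef A ∧ Big A}) (fun _ k => k.1.car) (fun γ k => ?_) γ fun i => ?_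
  · have c2 := v2 (k 1).1 (k 2).1
    have c' := fun i => (c2 i).car
    have p : 0 < qf ![γ 1, γ 2] Λ Λ := h.pos hK (cons_mem (p := fun A => Nef A ∧ Big A)
      ⟨h1.nef, h2⟩ (cons_mem (p := fun A => Nef A ∧ Big A) ⟨h1.nef, h2⟩ (v2 (k 1) (k 2))))
    have t : ∀ s : ℝ, qf ![γ 1, γ 2] Λ Λ * (qf ![γ 1, γ 2] (γ 0) (γ 0) +
        2 * s * qf ![γ 1, γ 2] β (γ 0)) ≤ qf ![γ 1, γ 2] Λ (γ 0) ^ 2 := fun s => by
      obtain ⟨m, hm⟩ := nef_dsc d s
      have c0 := (k 0).1.car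
      have := qf_lor h V hK c2 h1.nef (add_mem c0 ((Car K).smul_mem s cβ))
        (add_assoc (γ 0) _ _ ▸ (k 0).1.add hm)
      rw [qf_l h hK c' c0 cβ (add_mem c0 ((Car K).smul_mem s cβ)), qf_r h hK c' c0 cβ c0,
        qf_r h hK c' c0 cβ cβ, qf_r h hK c' c0 cβ cΛ, s3 _ _ (k 1).1 (k 2).1, qf_comm h hK c' c0 cβ,
        show qf ![γ 1, γ 2] Λ β = 0 from e _ (k 1).1.car _ (k 2).1.car] at this
      linarith
    have w : I (3 + 1) K (Fin.cons β γ) = qf ![γ 1, γ 2] β (γ 0) :=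
      congrArg (I 4 K) (funext fun i => by fin_cases i <;> rfl)
    rw [w]
    by_contra q
    generalize qf ![γ 1, γ 2] Λ Λ = A, qf ![γ 1, γ 2] (γ 0) (γ 0) = B, qf ![γ 1, γ 2] β (γ 0) = C,
      qf ![γ 1, γ 2] Λ (γ 0) = E at p t q
    have := t (((E ^ 2 + 1) / A - B) / (2 * C))
    rw [show A * (B + 2 * (((E ^ 2 + 1) / A - B) / (2 * C)) * C) = E ^ 2 + 1 by
      field_simp; ring] at this
    linarith
  · obtain ⟨x, y, u, v, q⟩ := mem_Car_iff_sub.1 (hγ i)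
    rw [q, ← add_sub_add_left_eq_sub x y Λ]
    exact sub_mem (Submodule.subset_span ⟨(h1.add u).nef, h2.add_smp u⟩)
      (Submodule.subset_span ⟨(h1.add v).nef, h2.add_smp v⟩)

end Vale.Agent.P287D.F1
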