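import Vale.Agent.P287D.F1.Bas

/-!
# P287D, block F1: the row PNR
-/

set_option linter.all false

noncomputable section

namespace Vale.Agent.P287D.F1

open Set MvPolynomial P287Q Nc P297Z.Pl Algebra Cardinal

variable {J K : Type} [Fintype J] [Field K] [Algebra ℂ K] {η : J → K} {d e m : ℕ}
  {a b G : MvPolynomial J ℂ}

theorem trdeg_step {S : Type} [CommRing S] [Algebra ℂ S] {I I' : Ideal S} (h : I.IsPrime)
    (h' : I'.IsPrime) (e : I < I') : trdeg ℂ (S ⧸ I') + 1 ≤ trdeg ℂ (S ⧸ I) := by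
  obtain ⟨β, x, hx⟩ := exists_isTranscendenceBasis' ℂ (S ⧸ I')
  obtain ⟨t, t1, t2⟩ := exists_of_ssubset e
  choose y hy using fun i => Ideal.Quotient.mk_surjective (x i)
  have := Pb.option_ind0 ((IsScalarTower.toAlgHom ℂ _ (FractionRing (S ⧸ I'))).comp
    (Ideal.Quotient.factorₐ ℂ e.le)) (fun i => Ideal.Quotient.mk I (y i))
    (by simpa [hy, Function.comp_def] using hx.1.map' (f := IsScalarTower.toAlgHom ℂ _ (FractionRing (S ⧸ I')))
          (IsFractionRing.injective _ _))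
    (Ideal.Quotient.mk I t) (mt Ideal.Quotient.eq_zero_iff_mem.1 t2)
    (by simp [Ideal.Quotient.eq_zero_iff_mem.2 t1])
  simpa [hx.cardinalMk_eq_trdeg] using this.cardinalMk_le_trdeg

theorem trdeg_bot : trdeg ℂ (MvPolynomial J ℂ ⧸ (⊥ : Ideal (MvPolynomial J ℂ))) = Fintype.card J := by
  rw [(AlgEquiv.quotientBot ℂ _).trdeg_eq, MvPolynomial.trdeg_of_isDomain]
  simp

theorem hom_right (hG : G.IsHomogeneous e) (h0 : G ≠ 0) (h : (G * b).IsHomogeneous d) :
    ∃ k, b.IsHomogeneous k := by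
  classical
  letI := gradedAlgebra (σ := J) (R := ℂ)
  have k : ∀ j, homogeneousComponent (e + j) (G * b) = G * homogeneousComponent j b := fun j => by
    rw [← decomposition.decompose'_apply, ← decomposition.decompose'_apply]
    exact DirectSum.coe_decompose_mul_add_of_left_mem (homogeneousSubmodule J ℂ) hG
  refine ⟨d - e, ?_⟩
  rw [← sum_homogeneousComponent b]
  refine IsHomogeneous.sum _ _ _ fun j _ => ?_
  by_cases q : e + j = d
  · exact (show j = d - e by omega) ▸ homogeneousComponent_isHomogeneous j b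
  · have := k j
    rw [homogeneousComponent_of_mem h, if_neg q, eq_comm, mul_eq_zero] at this
    exact this.resolve_left h0 ▸ isHomogeneous_zero _ _ _

/-- the homogeneous ideal of a point -/
theorem exists_core (hK : FF K m) (h0 : ∃ j, η j ≠ 0) (h : Algebra.IsAlgebraic (fl (u1 J) η) K) :
    ∃ P : Ideal (MvPolynomial J ℂ), P.IsPrime ∧ (∀ g ∈ P, ∀ k, homogeneousComponent k g ∈ P) ∧
      (∀ d a, a.IsHomogeneous d → (a ∈ P ↔ aeval η a = 0)) ∧
      (m : Cardinal) + 1 ≤ trdeg ℂ (_ ⧸ P) := by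
  classical
  letI := gradedAlgebra (σ := J) (R := ℂ)
  obtain ⟨j, hj⟩ := h0
  let ρ : MvPolynomial J ℂ →ₐ[ℂ] K := aeval fun i => η i * (η j)⁻¹
  have hp := RingHom.ker_isPrime ρ
  let P := (RingHom.ker ρ).homogeneousCore (homogeneousSubmodule J ℂ)
  have c : ∀ g ∈ P.toIdeal, ∀ k, homogeneousComponent k g ∈ P.toIdeal := fun g hg k =>
    homogeneousComponent_mem_of_mem P.isHomogeneous hg k
  have le := Ideal.toIdeal_homogeneousCore_le (homogeneousSubmodule J ℂ) (RingHom.ker ρ)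
  refine ⟨_, hp.homogeneousCore, c, fun d a ha => ?_, le_trans (add_le_add_left ?_ _)
    (trdeg_step hp.homogeneousCore hp (le.lt_of_ne fun q => ?_))⟩
  · have : a ∈ RingHom.ker ρ ↔ aeval η a = 0 := by
      rw [RingHom.mem_ker, aeval_mul ha, mul_eq_zero, or_iff_left (pow_ne_zero _ (inv_ne_zero hj))]
    exact ⟨fun k => this.1 (le k), fun k =>
      Ideal.mem_homogeneousCore_of_homogeneous_of_mem ⟨d, ha⟩ (this.2 k)⟩
  · have := IntermediateField.isAlgebraic_adjoin_iff_top.1 (alg_mono (L' := .adjoin ℂ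
      (range fun i => η i * (η j)⁻¹)) (IntermediateField.adjoin_le_iff.2 (by
        rintro _ ⟨i, i', -, rfl⟩
        rw [← mul_div_mul_right _ _ (inv_ne_zero hj)]
        exact div_mem (IntermediateField.subset_adjoin _ _ ⟨i, rfl⟩)
          (IntermediateField.subset_adjoin _ _ ⟨i', rfl⟩))) h)
    obtain ⟨t, t1, t2⟩ := exists_isTranscendenceBasis_subset (R := ℂ)
      (range fun i => η i * (η j)⁻¹)
    choose i hi using fun x : t => t1 x.2
    rw [← Pb.ff_trdeg hK, ← t2.cardinalMk_eq_trdeg]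
    refine (AlgebraicIndependent.of_comp (x := fun x => Ideal.Quotient.mk _ (X (i x)))
      (Ideal.kerLiftAlg ρ) ?_).cardinalMk_le_trdeg
    convert t2.1 using 1
    exact funext fun x => by simpa [ρ] using hi x
  · have := c (X j - 1) (q ▸ by simp [RingHom.mem_ker, ρ, hj]) 0
    refine hp.ne_top ((Ideal.eq_top_iff_one _).2 ?_)
    simpa using neg_mem (le this)

theorem gen_ne {n : ℕ} (hK : FF K (n + 1)) (hJ : Fintype.card J = n + 2) (h0 : ∃ j, η j ≠ 0)
    (h : Algebra.IsAlgebraic (fl (u1 J) η) K) (ha : a.IsHomogeneous d) (a0 : a ≠ 0) :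
    aeval η a ≠ 0 := fun k => by
  obtain ⟨P, h1, -, h2, h3⟩ := exists_core hK h0 h
  have := (add_le_add_left h3 1).trans (trdeg_step Ideal.isPrime_bot h1
    (bot_lt_iff_ne_bot.2 (Submodule.ne_bot_iff _ |>.2 ⟨a, (h2 d a ha).2 k, a0⟩)))
  rw [trdeg_bot, hJ] at this
  norm_cast at this
  omega

/-- the equation of a hypersurface -/
def Hyp {E : Type} [Field E] [Algebra ℂ E] (ζ : J → E) (G : MvPolynomial J ℂ) : Prop :=
  ∀ d a, a.IsHomogeneous d → (aeval ζ a = 0 ↔ G ∣ a)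

theorem exists_hyp (hK : FF K m) (hJ : Fintype.card J = m + 2) (h0 : ∃ j, η j ≠ 0)
    (h : Algebra.IsAlgebraic (fl (u1 J) η) K) (ha : a.IsHomogeneous d) (a0 : a ≠ 0)
    (k : aeval η a = 0) : ∃ G e, Prime G ∧ G.IsHomogeneous e ∧ Hyp η G := by
  obtain ⟨P, h1, c, h2, h3⟩ := exists_core hK h0 h
  obtain ⟨G, g1, g2⟩ := h1.exists_mem_prime_of_ne_bot
    (Submodule.ne_bot_iff _ |>.2 ⟨a, (h2 d a ha).2 k, a0⟩)
  have p := (Ideal.span_singleton_prime g2.ne_zero).2 g2
  have q : Ideal.span {G} = P := by_contra fun q => by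
    have := (add_le_add_left ((add_le_add_left h3 1).trans (trdeg_step p h1
      (((Ideal.span_singleton_le_iff_mem _).2 g1).lt_of_ne q))) 1).trans
      (trdeg_step Ideal.isPrime_bot p (bot_lt_iff_ne_bot.2 (by simpa using g2.ne_zero)))
    rw [trdeg_bot, hJ] at this
    norm_cast at this
    omega
  obtain ⟨e, he, e0⟩ := Finset.exists_ne_zero_of_sum_ne_zero
    ((sum_homogeneousComponent G).symm ▸ g2.ne_zero)
  obtain ⟨b, hb⟩ := Ideal.mem_span_singleton.1 (q ▸ c G g1 e)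
  have b0 : b ≠ 0 := by rintro rfl; simp [e0] at hb
  have t := (homogeneousComponent_isHomogeneous e G).totalDegree e0
  rw [hb, totalDegree_mul_of_isDomain g2.ne_zero b0] at t
  have := Finset.mem_range.1 he
  obtain ⟨r, hr⟩ := hom_right ((totalDegree_zero_iff_isHomogeneous _).1 (show b.totalDegree = 0 by
    omega)) b0 (mul_comm G b ▸ hb ▸ homogeneousComponent_isHomogeneous e G)
  exact ⟨G, r, g2, hr, fun d a ha => by rw [← h2 d a ha, ← q, Ideal.mem_span_singleton]⟩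

theorem pnr : PNR := by
  intro n J K _ _ _ η hK hJ h0 ht Q hQ
  have hA : Algebra.IsAlgebraic (fl (u1 J) η) K :=
    ⟨fun f => isAlgebraic_algebraMap (⟨f, ht ▸ trivial⟩ : fl (u1 J) η)⟩
  have ne := fun d a => gen_ne (a := a) (d := d) hK hJ h0 hA
  have qt := fun f => qt_of_fl (ξ := η) (f := f) (ht ▸ trivial)
  have nn := fun R a => ord_nonneg_of_mem _ (nr_aeval_mem η R a)
  have ex : ∀ R, Pr (u1 J) η R → ∃ G e, Prime G ∧ G.IsHomogeneous e ∧ Hyp (zt η R) G := by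
    intro R hR
    obtain ⟨d, a, b, ha, hb, -, b0, e⟩ := qt R.t
    have a0 : aeval η a ≠ 0 := fun k => R.t_ne (by rw [e, k, zero_div])
    refine exists_hyp (Gm.ff_κ R hK) hJ (zt_nz h0 R) ((pr_iff h0).1 hR) ha
      (by rintro rfl; simp at a0) (by_contra fun k => ?_)
    have := R.ord_t
    rw [e, nr_div ha hb R, ord_div _ ((nr_ne ha).2 a0) ((nr_ne hb).2 b0),
      ((rd_ne_iff (nr_aeval_mem η R a)).1 (rd_nr η R a ▸ k)).2] at this
    linarith [nn R b]
  obtain ⟨G, e, g1, g2, g3⟩ := ex Q hQ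
  have G0 := ne e G g2 g1.ne_zero
  have k1 : ∀ d a, a.IsHomogeneous d → a ≠ 0 → ∃ k : ℕ, ∀ R, Hyp (zt η R) G →
      R.ord (aeval (nr η R) a) = k * R.ord (aeval (nr η R) G) := fun d a ha a0 => by
    obtain ⟨k, b, h1, rfl⟩ := WfDvdMonoid.max_power_factor a0 g1.irreducible
    obtain ⟨r, hr⟩ := hom_right (g2.pow k) (pow_ne_zero _ g1.ne_zero) ha
    refine ⟨k, fun R hR => ?_⟩
    have := (rd_ne_iff (nr_aeval_mem η R b)).1 (rd_nr η R b ▸ mt (hR r b hr).1 h1)
    rw [map_mul, map_pow, ord_mul _ (pow_ne_zero _ ((nr_ne g2).2 G0)) this.1, this.2, ord_pow,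
      add_zero]
  have k2 : ∀ f : K, f ≠ 0 → ∃ z : ℤ, ∀ R, Hyp (zt η R) G →
      R.ord f = z * R.ord (aeval (nr η R) G) := fun f f0 => by
    obtain ⟨d, a, b, ha, hb, -, b0, rfl⟩ := qt f
    have a0 := (div_ne_zero_iff.1 f0).1
    obtain ⟨k, hk⟩ := k1 d a ha (by rintro rfl; simp at a0)
    obtain ⟨l, hl⟩ := k1 d b hb (by rintro rfl; simp at b0)
    exact ⟨k - l, fun R hR => by
      rw [nr_div ha hb R, ord_div _ ((nr_ne ha).2 a0) ((nr_ne hb).2 b0), hk R hR, hl R hR, sub_mul]⟩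
  have k3 : ∀ R, Hyp (zt η R) G → R.ord (aeval (nr η R) G) = 1 := fun R hR =>
    let ⟨z, hz⟩ := k2 R.t R.t_ne
    Int.eq_one_of_mul_eq_one_left (nn R G) ((hz R hR).symm.trans R.ord_t)
  refine ⟨e, G, g2, G0, fun R hR => ?_⟩
  rw [← nr_ord g2 G0]
  rcases eq_or_ne R Q with rfl | q
  · rw [k3 R g3, Pl.δ_self, Int.cast_one]
  rw [Pl.δ_ne q, Int.cast_eq_zero]
  refine ((rd_ne_iff (nr_aeval_mem η R G)).1 (rd_nr η R G ▸ fun k => q ?_)).2
  obtain ⟨G', e', a1, a2, a3⟩ := ex R hR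
  have as := a1.associated_of_dvd g1 ((a3 e G g2).1 k)
  have a4 : Hyp (zt η R) G := fun d a ha => (a3 d a ha).trans as.dvd_iff_dvd_left
  refine Pl.ext' (ValuationSubring.ext _ _ fun f => ?_)
  rcases eq_or_ne f 0 with rfl | f0
  · simp
  obtain ⟨z, hz⟩ := k2 f f0
  rw [← ord_nonneg_iff _ f0, ← ord_nonneg_iff _ f0, hz R a4, hz Q g3, k3 R a4, k3 Q g3]

end Vale.Agent.P287D.F1
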