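import Vale.Agent.P287D.F1.Bas
import Vale.Agent.P287D.Br.Loc
import Vale.Agent.P287D.Ba.PosOn

/-!
# P287D, block F1: the row SMO
-/

set_option linter.all false

noncomputable section

namespace Vale.Agent.P287D.F1

open Set MvPolynomial P287Q Nc

theorem hom_of_wh {J : Type} [Fintype J] {δ : Unit → ℤ} {g : MvPolynomial J ℂ}
    (h : WHom (bw (u1 J)) δ g) : g.IsHomogeneous (δ ()).toNat := fun α hα => by
  rw [← h α (mem_support_iff.2 hα) (), Finsupp.weight_apply, Finsupp.sum_fintype _ _ (by simp)]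
  simp [bw, ← Nat.cast_sum]

theorem smo : SMO := by
  intro n N A hA c K _ _ ξ hξ
  obtain ⟨a, h⟩ := Br.vm hξ
  have h0 := nz_iff.1 hξ.nz
  obtain ⟨D, -, -, d, -, e, -⟩ := h.lam (fun _ _ => rfl) h0
  replace e : lam ξ = Ba.bar a.M D := by convert e; rfl
  have k : ∀ y ∈ A, ∀ f ∈ a.M.O (a.pt y), Qt ξ (fun _ b => eval y b ≠ 0) f := fun y hy f hf =>
    let ⟨δ, _, B, a1, a2, a3, a4⟩ := h.loc hy hf
    ⟨_, _, _, hom_of_wh a1, hom_of_wh a2, a3, fun q => a3 (h.gq.gen δ B a2 q y hy), a4⟩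
  refine ⟨⟨_, e ▸ Ba.term_amp a.proj d⟩, e ▸ Ba.qf_amp a.proj d, fun P hP => ?_, fun β hβ => ?_⟩
  · obtain ⟨x, t, ht⟩ := (Ba.on_iff a.proj d).1 (e ▸ hP)
    obtain ⟨y, hy, rfl⟩ := a.exists_pt x
    obtain ⟨δ, p, q, a1, a2, a3, a4⟩ := h.loc hy ht.mem
    have := (zt_ne_iff (hom_of_wh a2)).1 fun z =>
      a3 ((h.ct_iff hy (rd_zt h0 P)).1 ht.le δ q a2 z)
    exact ⟨t, ht.ord, _, p, q, hom_of_wh a1, hom_of_wh a2, this.2, this.1, a4⟩
  · have q : ∀ γ, Smp γ → Dsc (lam ξ) γ →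
        γ ∈ Submodule.span ℝ (mx '' {s | Fre A ξ s ∧ Dsc (lam ξ) (mx s)}) := fun γ u v => by
      obtain ⟨E, e1, rfl⟩ := (Ba.dsc_iff a.proj d).1 (e ▸ v)
      refine Ba.smp_ind a.proj (p := fun E => Ba.bar a.M E ∈ Submodule.span ℝ _) (by simp)
        (fun _ _ x y => map_add (Ba.bar a.M) _ _ ▸ add_mem x y)
        (fun _ t _ x => map_smul (Ba.bar a.M) _ _ ▸ Submodule.smul_mem _ t x)
        (fun s hs => Submodule.subset_span ⟨s, ⟨fun y hy => ?_, ?_⟩, Ba.mx_prin a.proj hs⟩) e1 u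
      · obtain ⟨f, f1, f2, f3⟩ := hs (a.pt y)
        exact ⟨f, f1, f2, fun g hg => k y hy _ (f3 g hg)⟩
      · exact e ▸ Ba.mx_prin a.proj hs ▸ Ba.dsc_bar a.proj d _
    obtain ⟨x, y, u, v, rfl⟩ := hβ.exists_amp_sub
    exact sub_mem (q x u.smp u.1) (q y v.smp v.1)

end Vale.Agent.P287D.F1
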