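import Vale.Agent.P287D.St
import Vale.Agent.P287D.Nc.Bas
import Vale.Agent.P287D.Va.Cone

/-!
# P287D, block F1: projective space and the smooth cubic are Fano of rank one (statements)
-/

noncomputable section

namespace Vale.Agent.P287D.F1

open Set MvPolynomial P287Q Nc

variable {J K : Type} [Fintype J] [Field K] [Algebra ℂ K]

open Classical in
/-- the hyperplane class -/
def lam (ξ : J → K) : BD K := mx (Finset.univ.image ξ)

/-- one block -/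
abbrev u1 (J : Type) : J → Unit := fun _ => ()

/-- `f` is a quotient of two forms of one degree; the denominator has the property `p` -/
def Qt (ξ : J → K) (p : ℕ → MvPolynomial J ℂ → Prop) (f : K) : Prop :=
  ∃ (d : ℕ) (a b : MvPolynomial J ℂ), a.IsHomogeneous d ∧ b.IsHomogeneous d ∧ p d b ∧
    aeval ξ b ≠ 0 ∧ f = aeval ξ a / aeval ξ b

/-- the system `s` has no base points on the cone `A` -/
def Fre (A : Set (J → ℂ)) (ξ : J → K) (s : Finset K) : Prop :=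
  ∀ y ∈ A, ∃ f ∈ s, f ≠ 0 ∧ ∀ g ∈ s, Qt ξ (fun _ b => eval y b ≠ 0) (g / f)

/-- the local ring of the variety at the centre of `P` contains a uniformizer -/
def Uni (ξ : J → K) (P : Pl K) : Prop :=
  ∃ t, P.ord t = 1 ∧ Qt ξ (fun d b => (P.ord (aeval ξ b) : ℝ) + d * lam ξ P = 0) t

/-- what smoothness gives -/
structure Smo (n : ℕ) (A : Set (J → ℂ)) (ξ : J → K) : Prop where
  term : ∃ Γ, Term n (lam ξ) Γ
  qf : QF n (lam ξ)
  uni : ∀ P, On n (lam ξ) P → Uni ξ P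
  loc : ∀ β, Dsc (lam ξ) β →
    β ∈ Submodule.span ℝ (mx '' {s | Fre A ξ s ∧ Dsc (lam ξ) (mx s)})

/-- **SMO**: smooth varieties -/
def SMO : Prop := ∀ (n N : ℕ) (A : Set (Fin N → ℂ)) (h : PV (Cub.π₀ (Fin N)) A (n + 1))
  (c : IsConnected A) (K : Type) [Field K] [Algebra ℂ K] (ξ : Fin N → K),
  Gp (Top.one h c) ξ → Smo n A ξ

/-- **PNR**: the prime divisors of projective space are hypersurfaces -/
def PNR : Prop := ∀ (n : ℕ) (J K : Type) [Fintype J] [Field K] [Algebra ℂ K] (η : J → K),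
  FF K (n + 1) → Fintype.card J = n + 2 → (∃ j, η j ≠ 0) → fl (u1 J) η = ⊤ →
  ∀ Q, Pr (u1 J) η Q → ∃ (d : ℕ) (g : MvPolynomial J ℂ), g.IsHomogeneous d ∧ aeval η g ≠ 0 ∧
    ∀ R, Pr (u1 J) η R → (R.ord (aeval η g) : ℝ) + d * lam η R = Q.δ R

/-- **HOD**: multiplication with an ample class is injective -/
def HOD : Prop := ∀ (K : Type) [Field K] [Algebra ℂ K] (Λ β : BD K), FF K 4 → Smp Λ → Big Λ →
  Dsc Λ β → (∀ γ ∈ Car K, ∀ γ' ∈ Car K, I4 Λ β γ γ' = 0) → Num β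

/-- **CAN**: the canonical divisor of a smooth hypersurface -/
def CAN : Prop := ∀ (n e : ℕ) (K : Type) [Field K] [Algebra ℂ K] (ξ : Fin (n + 3) → K)
  (F : MvPolynomial (Fin (n + 3)) ℂ), FF K (n + 1) → F.IsHomogeneous e →
  (∀ z : Fin (n + 3) → ℂ, (∀ i, eval z (pderiv i F) = 0) → z = 0) → aeval ξ F = 0 →
  (∃ j, ξ j ≠ 0) → ∃ f : K, f ≠ 0 ∧ ∀ P, Pr (u1 _) ξ P → Uni ξ P →
    cn K (n + 1) P = P.ord f - ((n : ℝ) + 3 - e) * lam ξ P

/-- **TRI**: the divisors of a hypersurface, times the hyperplane class, come from the space -/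
def TRI : Prop := ∀ (e : ℕ) (K : Type) [Field K] [Algebra ℂ K] (ξ : Fin 6 → K)
  (F : MvPolynomial (Fin 6) ℂ) (s : Finset K), FF K 4 → F.IsHomogeneous e → F ≠ 0 →
  aeval ξ F = 0 → (∃ j, ξ j ≠ 0) → fl (u1 _) ξ = ⊤ → Fre (Pub.cone F) ξ s →
  Dsc (lam ξ) (mx s) → ∃ a : ℝ, ∀ γ ∈ Car K, ∀ γ' ∈ Car K,
    I4 (lam ξ) (mx s - a • lam ξ) γ γ' = 0

/-- **FAN**: the output -/
structure FAN : Prop where
  p4 : ∀ (K : Type) [Field K] [Algebra ℂ K] (y : Fin 5 → K), Gp (Pn 4) y → Fano1 3 (lam y)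
  cub : ∀ F : MvPolynomial (Fin 6) ℂ, F.IsHomogeneous 3 → Pub.IsSmoothForm F →
    ∀ (h : PV (Cub.π₀ (Fin 6)) (Pub.cone F) 4) (c : IsConnected _) (K : Type) [Field K]
      [Algebra ℂ K] (x : Fin 6 → K), Gp (Top.one h c) x → Fano1 3 (lam x)

end Vale.Agent.P287D.F1
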